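import Crest.Agent.X212.Rf65.Pr
import Crest.Agent.X212.One97.Ext
import Crest.Agent.X212.Loc66.Paste
import Crest.Agent.X212.Bki64.G1

/-!
# Row 212, RF-RY (helper71), part 1: a flat limit can be replaced by any other one
-/

set_option autoImplicit false
set_option linter.unusedSectionVars false
noncomputable section
open scoped Manifold ContDiff Topology InnerProductSpace
open MeasureTheory Set Function Filter

namespace Crest.Agent.X212.Rr71
open An Nd18 Mod61 Rdc90 Pj41 Tmp64 Cyf70 Rf65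

section fmt
variable {E3 : Type} [NormedAddCommGroup E3] [NormedSpace ℝ E3] [FiniteDimensional ℝ E3]
  [MeasurableSpace E3] [BorelSpace E3]
  {H3 : Type} [TopologicalSpace H3] {I3 : ModelWithCorners ℝ E3 H3} [I3.Boundaryless]
  {Y : Type} [TopologicalSpace Y] [ChartedSpace H3 Y] [IsManifold I3 ∞ Y] [T2Space Y]
  [MeasurableSpace Y] [BorelSpace Y] [SecondCountableTopology Y] [CompactSpace Y]
  {κ : Type} [Fintype κ] {lam : Type} [Fintype lam]
  {E : Type} [NormedAddCommGroup E] [NormedSpace ℝ E] [FiniteDimensional ℝ E]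
  [MeasurableSpace E] [BorelSpace E]
  {HM : Type} [TopologicalSpace HM] {I : ModelWithCorners ℝ E HM} [I.Boundaryless]
  {M : Type} [TopologicalSpace M] [ChartedSpace HM M] [IsManifold I ∞ M] [MeasurableSpace M]
  [T2Space M] [BorelSpace M] [SecondCountableTopology M]
  {D : YD I3 Y κ lam} {B : Base M (Option κ) lam} {G : Geo I M (Option κ) lam} {K : Nk D B G}
  {m : Md M (Option κ) lam} {W W' : m.Cn} {β : YC Y κ lam} {S : Set ℝ} {l : Filter ℝ} {d : ℝ}

/-- the configuration of a connection -/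
abbrev cf (W : m.Cn) : Cfg M (Option κ) lam 0 := ⟨m, W, 0, 0⟩

theorem dw_congr {N : Type} [NormedAddCommGroup N] [NormedSpace ℝ N] {ι : Type} [Fintype ι]
    {F : Pre I M ι} (w : List ι) : ∀ {u v : M → N} {x : M}, u =ᶠ[𝓝 x] v → F.Dw w u x = F.Dw w v x := by
  induction w with
  | nil => exact fun h => h.self_of_nhds
  | cons a w ih => exact fun h => ih (h.eventuallyEq_nhds.mono fun _ => Sob92.dv_congr)

theorem adm_cf (hm : m.OK I B) (hW : m.IsConn B G W) : (cf W).Adm B G :=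
  ⟨hm, hW, contMDiff_const, fun _ => map_zero _, .inl rfl⟩

theorem admJ (hm : m.OK I B) (hW : m.IsConn B G W) (hS : S ⊆ K.J) :
    AdmOn (K.pb (cf W)) D.B D.G (univ ×ˢ S) :=
  (One97.admOn_pb K isOpen_univ (admOn_univ.2 (adm_cf hm hW))).mono fun _ hx =>
    ⟨K.mem_src.2 (hS hx.2), trivial⟩

theorem elim_congr (e : ∀ x ∈ K.ψ.target, ∀ a, W' a x = W a x) (H : K.ELim d (cf W) β 1 l) :
    K.ELim d (cf W') β 1 l := by
  obtain ⟨u : Y × ℝ → CL m.V β.m.V, S, h1, h2, h3, h4⟩ := H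
  have k : ∀ {T k η}, T ⊆ S → D.Cls (K.pb (cf W)) β u 1 T k η → D.Cls (K.pb (cf W')) β u 1 T k η :=
    fun {T k η} s h => ⟨h.op, h.m, fun a w hw x hx => (congrArg _ (dw_congr w
      (((isOpen_univ.prod h.op).eventually_mem hx).mono fun y hy => congrArg
        (fun t : En (Fin m.N) => (D.Z.D a u y + β.W a y.1 ∘L u y - u y ∘L t) ∘L trn (u y))
        (e _ (K.ψ.map_source (K.mem_src.2 (h2 (s hy.2)))) a)))).trans_le
      (h.A a w hw x hx), h.P⟩
  exact ⟨u, S, h1, h2, k Subset.rfl h3, fun j => (h4 j).imp fun C h s hs => k hs (h s hs)⟩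

variable (hm : m.OK I B) (hW : m.IsConn B G W) (hβ : Bs D β) (hS : S ⊆ K.J) {Φ : M → m.V}
  {u : Y × ℝ → CL m.V β.m.V} (h : D.Cls (K.pb (⟨m, W, Φ, 0⟩ : Cfg M _ lam 0)) β u 1 S 0 0)
include hm hW hβ hS h

theorem iso_std : Iso0 (IC I3) (K.pb (cf W)).m (cy β).m (univ ×ˢ S) u :=
  Iso0.of_mEq (isOpen_univ.prod h.op) h.m (admJ hm hW hS).ok (OK.on hβ.adm.adm.ok _)

theorem par_std : Par0 D.Z (K.pb (cf W)).W (cy β).W (univ ×ˢ S) u := fun x hx a =>
  (Bki64.dA_u (c := K.pb (cf W)) (c' := cy β) (iso_std hm hW hβ hS h) (isOpen_univ.prod h.op)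
    (admJ hm hW hS) hx a).symm.trans ((congrArg (· ∘L u x)
      (norm_le_zero_iff.1 (h.A a [] le_rfl x hx))).trans (ContinuousLinearMap.zero_comp _))

theorem elim_std (hl : S ∈ l) : K.ELim d (cf W) β 1 l := by
  have k := fun k η => Bki64.Cl.of_eq (F := D.Z) (c := K.pb (cf W)) (c' := cy β) (ζ := fun _ => 1)
    (k := k) (η := η) (isOpen_univ.prod h.op) (iso_std hm hW hβ hS h)
    (fun a x hx => par_std hm hW hβ hS h x hx a) fun x _ => by
      show cs β.m.J _ (u x 0) - β.Φ x.1 = 0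
      simp [hβ.zr, cs]
  exact ⟨u, S, hl, hS, (k 0 1 zero_le_one).cls hβ.adm h.op (admJ hm hW hS), fun j => ⟨0, fun s hs =>
    ((k j _ (by simp)).mono (isOpen_univ.prod isOpen_Ioo) (prod_mono_right hs) le_rfl le_rfl).cls
      hβ.adm isOpen_Ioo (admJ hm hW (hs.trans hS))⟩⟩

theorem kd_std {x : M} (hx : K.tm x ∈ S) : m.kd B G.F W x = 0 := by
  have ht : x ∈ K.ψ.target := K.tgt ▸ hS hx
  have hz : K.ψ.symm x ∈ (univ ×ˢ S : Set (Y × ℝ)) := ⟨trivial, (K.snd_symm ht).symm ▸ hx⟩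
  have A := admJ hm hW hS
  have := Loc66.norm_Fg_loc (iso_std hm hW hβ hS h) (isOpen_univ.prod h.op) A.ok
    (OK.on hβ.adm.adm.ok _) (fun a => A.conn.sm a _ hz) (fun a => hβ.adm.adm.conn.cc.sm a _)
    (par_std hm hW hβ hS h) hz
  have e : (K.pb (cf W)).m.Fg D.Z (K.pb (cf W)).W (K.ψ.symm x) = m.Fg G.F W (K.ψ (K.ψ.symm x)) :=
    K.rel.Fg (K.ψ.map_target ht) W
  rw [hβ.flat, e, K.ψ.right_inv ht, norm_zero, eq_comm, sq_eq_sq₀ (norm_nonneg _) le_rfl,
    norm_eq_zero] at this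
  rw [Md.kd, show m.Fg G.F W x = 0 from this, inner_zero_left, mul_zero]

theorem int_std (hB : B.OK I) (hG : G.OK B) {A C : Set ℝ} (hA : IsClosed A) (hC : IsCompact C)
    (hCJ : C ⊆ K.J) (hs : A ⊆ C ∪ S) (e : ∀ x, K.tm x ∉ A → ∀ a, W a x = W' a x) {O : Set M}
    (i : IntegrableOn (m.kd B G.F W') O G.F.μ) : IntegrableOn (m.kd B G.F W) O G.F.μ := by
  have o := (hA.preimage K.cont).isOpen_compl
  have c : IsCompact (K.ψ '' univ ×ˢ C) := (isCompact_univ.prod hC).image_of_continuousOn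
    (K.ψ.continuousOn.mono fun z hz => K.mem_src.2 (hCJ hz.2))
  refine ((IntegrableOn.union (s := O ∩ (K.tm ⁻¹' A)ᶜ) ?_ ((Loc66.sm_kd hB hG hm
    hW).continuous.continuousOn.integrableOn_compact c)).union (integrableOn_zero.congr_fun
    (fun x hx => (kd_std hm hW hβ hS h hx).symm) (h.op.preimage K.cont).measurableSet)).mono_set
    fun x hx => (em (K.tm x ∈ A)).elim (fun k => (hs k).elim (fun k => ?_) .inr)
      fun k => .inl (.inl ⟨hx, k⟩)
  · rw [IntegrableOn, inter_comm, ← Measure.restrict_restrict o.measurableSet]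
    exact (Integrable.integrableOn i).congr_fun (fun x hx => Loc66.kd_congr fun a =>
      (o.eventually_mem hx).mono fun y hy => (e y hy a).symm) o.measurableSet
  · have ht : x ∈ K.ψ.target := K.tgt ▸ hCJ k
    exact .inl (.inr ⟨K.ψ.symm x, ⟨trivial, (K.snd_symm ht).symm ▸ k⟩, K.ψ.right_inv ht⟩)

omit hS h in
theorem std_end (hB : B.OK I) (hG : G.OK B) (b : Bool)
    (hK : K.p = (bif b then none else some 0) ∧ K.q = bif b then some 0 else none) :
    ∃ W' : m.Cn, m.IsConn B G W' ∧ (∀ d, K.ELim d (cf W') β 1 (dr b)) ∧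
      (∀ x ∉ K.ψ.target, ∀ a, W' a x = W a x) ∧ ∀ O, IntegrableOn (m.kd B G.F W) O G.F.μ →
        IntegrableOn (m.kd B G.F W') O G.F.μ := by
  have H := fun s => One97.ext D hβ.ok hβ.dim E HM I M B G K hB hG 0 (cf W) β 1 s (adm_cf hm hW) hβ.adm
  cases b
  · have J : Ici 1 ⊆ K.J := fun s (hs : 1 ≤ s) => by simp [Jv, hK.1, hK.2]; linarith
    obtain ⟨W', Φ, a, ⟨u, S, s1, s2, s3⟩, e⟩ := (H 1 (J self_mem_Ici)).1 hK.2
    obtain ⟨T, hT⟩ := mem_atTop_sets.1 s1
    exact ⟨W', a.conn, fun d => elim_std hm a.conn hβ s2 s3 s1,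
      fun x hx => (e x fun k => hx (K.tgt ▸ J (Ioi_subset_Ici_self k))).1,
      fun O => int_std hm a.conn hβ s2 s3 hB hG isClosed_Ici isCompact_Icc
        (Icc_subset_Ici_self.trans J) (fun s hs => (le_total s T).imp (⟨hs, ·⟩) (hT s))
        fun x hx => (e x fun k => hx (Ioi_subset_Ici_self k)).1⟩
  · have J : Iic (-1) ⊆ K.J := fun s (hs : s ≤ -1) => by simp [Jv, hK.1, hK.2]; linarith
    obtain ⟨W', Φ, a, ⟨u, S, s1, s2, s3⟩, e⟩ := (H (-1) (J self_mem_Iic)).2 hK.1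
    obtain ⟨T, hT⟩ := mem_atBot_sets.1 s1
    exact ⟨W', a.conn, fun d => elim_std hm a.conn hβ s2 s3 s1,
      fun x hx => (e x fun k => hx (K.tgt ▸ J (Iio_subset_Iic_self k))).1,
      fun O => int_std hm a.conn hβ s2 s3 hB hG isClosed_Iic isCompact_Icc
        (Icc_subset_Iic_self.trans J) (fun s hs => (le_total T s).imp (⟨·, hs⟩) (hT s))
        fun x hx => (e x fun k => hx (Iio_subset_Iic_self k)).1⟩

end fmt

open M Cht98

variable {Wi : Type} {X : Mf 4} {A κ lam : Type} [Fintype A] [Fintype κ] [Fintype lam]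
  [DecidableEq lam] {M : Mark X A κ} {W : World M} {N : ML M lam} {Λ : Lns W N}
  {A' h : Type} [Fintype A'] [DecidableEq A'] [Fintype h] {r n : ℕ}
  {J : Job Wi Λ A' h r n}

/-- **MOV**, at every wall -/
theorem mov (hJ : J.OK) (c : M.Cl) (a : A) : Mov J c a := fun δ y ρ b γ _ ha e g hγ => by
  classical
  have ac : Act J.m c a (some b) (J.Θ y.s) := ⟨ha.2, g.br, g.O, ha.1⟩
  have k := hJ.nk c a _ _ ac
  obtain ⟨V, h1, h2, h3, h4⟩ := std_end (K := J.K c a _ _ ac) g.adm.ok g.adm.conn hγ (Λ.B_ok _ c)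
    (Λ.G_ok _ g.O) b (by cases b <;> exact ⟨by simpa using k.lo, by simpa using k.hi⟩)
  have en : ∀ i ∈ EdP c {ρ}, i.1.1 = a → i.2 = b := fun i ⟨_, k, hi⟩ e' => by
    obtain rfl : _ = ρ := k
    exact Option.some.inj (hi.symm.trans (e' ▸ e))
  refine ⟨{ y with x := ⟨y.x.m, V, 0, y.x.z⟩, β := update y.β a fun _ => γ }, rfl,
    ⟨g.br, g.O, ⟨g.adm.ok, h1, g.adm.sm, g.adm.pos⟩, fun i hi => ?_, fun i hi hb => ?_,
      h4 _ g.int⟩, ?_, fun a' e => update_of_ne e _ _⟩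
  · obtain ⟨⟨a', h'⟩, b'⟩ := i
    by_cases e' : a' = a
    · subst e'
      simpa using hγ
    · simpa [update_of_ne e'] using g.bs _ hi
  · obtain ⟨⟨a', h'⟩, b'⟩ := i
    by_cases e' : a' = a
    · subst e'
      obtain rfl : b' = b := en _ hi rfl
      exact ⟨δ + 1, lt_add_one δ, by simpa using h2 (δ + 1)⟩
    · obtain ⟨d, hd, H⟩ := g.lim _ hi hb
      refine ⟨d, hd, ?_⟩
      simp only [update_of_ne e']
      refine elim_congr (W := y.x.W) (fun x hx => h3 x fun hx' => disjoint_left.1 (disjoint_hZ W.toCaps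
        (.inl h') (.inl ha) (c.2 h'.1 ha.1 e')) (show _ < (3 : ℝ) from lt_trans
          (isNk_sub hb (hJ.nk c a' _ _ hb) hx) (by norm_num)) (show _ < (3 : ℝ) from lt_trans
          (isNk_sub ac k hx') (by norm_num))) H
  · simp only [update_self]
    exact ⟨_, 1, Eqv71.ceq_refl (c := cy γ) hγ.ok.B hγ.ok.G hγ.adm.adm isOpen_univ⟩

end Crest.Agent.X212.Rr71
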