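import Crest.Agent.X212.Rr71.Mov
import Crest.Agent.X212.Clr59.Main
import Crest.Agent.X212.Wl34.Wl
import Crest.Agent.X212.Nck90.Lv1
import Crest.Agent.X212.Idg99.Chr

/-!
# Row 212, RF-RY (helper71), part 2: the cross-section `S¹ × S²`
-/

set_option autoImplicit false
set_option linter.unusedSectionVars false
noncomputable section
open scoped Manifold ContDiff Topology InnerProductSpace
open MeasureTheory Set Function Filter

namespace Crest.Agent.X212.Rr71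
open An Nd18 Rdc90 Pj41 Tmp64 Cyf70 Rf65 M Clr59 Nck90 Sob92
open Ink3 (Nil)

section Y
variable {Y : Mf 3} [CompactSpace Y.M] {κ lam : Type} [Fintype κ] [Fintype lam]
  {D : YD Y.I Y.M κ lam} {θ : Y.M → Circle} {ϖ : Y.M → V3} {β β' : YC Y.M κ lam}
  {N : ND Y.M lam} {ζ ζ' : Circle} {ℓ : YC Y.M κ lam → ℝ}

theorem pr_comp {Y' : Mf 3} {F : Fr Y.I Y.M κ} (h : PR F θ ϖ) {F' : Fr Y'.I Y'.M κ}
    {g : Y'.M ≃ₘ^∞⟮Y'.I, Y.I⟯ Y.M}
    (e : ∀ k y, Dr59.mf Y'.I Y.I g y (Met55.atx F'.e y k) = Met55.atx F.e (g y) k) :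
    PR F' (θ ∘ g) (ϖ ∘ g) := by
  have d : ∀ {V : Type} [NormedAddCommGroup V] [NormedSpace ℝ V] {f : Y.M → V} k y,
      ContMDiffAt Y.I 𝓘(ℝ, V) ∞ f (g y) → F'.D k (fun y => f (g y)) y = F.D k f (g y) :=
    fun k y hf => (DFunLike.congr_fun (mfderiv_comp y (hf.mdifferentiableAt (by simp))
      (g.mdifferentiable (by simp) y)) _).trans (congrArg _ (e k y))
  have d1 := fun k y => d k y ((Line51.contMDiff_coe _).comp _ (sm_θ h (g y)))
  have d2 := fun k y => d k y (sm_ϖ h (g y))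
  refine ⟨fun _ => h.nrm _, h.oe.comp ((Cyl58.IsOE.of_diffeo g).prodMap .id), fun z v k => ?_,
    fun y v w => ?_, fun y v w => ?_, fun y v w => ?_⟩
  · obtain ⟨y, k⟩ := h.surj z v k
    exact ⟨g.symm y, by simpa using k⟩
  · exact (Finset.sum_congr rfl fun k _ => congrArg (fun a => inner ℝ v a * inner ℝ w a)
      (d1 k y)).trans (h.g1 _ v w)
  · exact (Finset.sum_congr rfl fun k _ => congrArg (fun a => inner ℝ v a * inner ℝ w a)
      (d2 k y)).trans (h.g2 _ v w)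
  · exact (Finset.sum_congr rfl fun k _ => congrArg₂ (fun a b => inner ℝ v a * inner ℝ w b)
      (d1 k y) (d2 k y)).trans (h.g12 _ v w)

/-- no level without spatial curvature -/
theorem kd_sp (hD : D.OK) {m : Md (Y.M × ℝ) (Option κ) lam} {W : m.Cn} {x : Y.M × ℝ}
    (h : ∀ j k, m.Fg D.Z W x (some j, some k) = 0) : m.kd D.B D.Z W x = 0 := by
  have z : ∀ a d, D.B.o a none none d x = 0 := fun a d => by linarith [hD.B.o23 a none none d x]
  have z1 : ∀ a d, D.B.o none a none d x = 0 := fun a d => by rw [hD.B.o12, z, neg_zero]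
  have z2 : ∀ a d, D.B.o none a d none x = 0 := fun a d => by rw [hD.B.o34, z1, neg_zero]
  have z3 : ∀ a d, D.B.o a none d none x = 0 := fun a d => by rw [hD.B.o34, z, neg_zero]
  rw [Loc66.kd_eq]
  refine mul_eq_zero_of_right _ (Finset.sum_eq_zero fun ⟨a, b⟩ _ =>
    Finset.sum_eq_zero fun ⟨c, d⟩ _ => ?_)
  cases a <;> cases b <;> cases c <;> cases d <;> simp [Base.st, z, z1, z2, z3, h]

theorem ci (hD : D.OK) : CI D := ci_of (fun _ _ hB hG _ _ _ _ H H' C C' =>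
  Idg99.kap_sub hB hG H C (by simp [Y.dim]) H' C') hD

/-- a path through harmonic forms has no level -/
theorem kd_mx (b : Bs D β) (hc : HC D β) {η : κ → Y.M → β.m.A} (hr : ∀ t : ℝ, Har D β (t • η))
    (x : Y.M × ℝ) : (cy β).m.kd D.B D.Z (mx (m := (cy β).m) 0 (cy β).W (cy (bh β η 0)).W) x = 0 := by
  have S : Sv D β (Rd78.up β η) 0 := Rd78.sv_up (one_smul ℝ η ▸ hr 1).toFo (φ := 0)
    ⟨contMDiff_const, fun _ => map_zero _⟩
  let α := fun x : Y.M × ℝ => Bki64.chi (x.2 - 0) • Rd78.up β η x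
  have S' : Sv D β α 0 := ⟨fun x => Wz78.SA.smul (sm_snd (Bki64.chi_sm 0) x) (S.sα x),
    fun x => (map_smul _ _ _).trans (congrArg _ (S.p1 x)), S.sΦ, S.pos⟩
  have e' : mx (m := (cy β).m) 0 (cy β).W (cy (bh β η 0)).W = (zc β α 0).W := funext₂ fun a x =>
    congrArg (β.W a x.1 + ·) ((congrArg _ (add_sub_cancel_left _ _)).trans (map_smul opL _ _).symm)
  refine kd_sp b.ok fun j k => ?_
  rw [e']
  refine (Rd78.Fg_sl b.adm b.flat S' x.1 x.2 j k).trans ?_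
  rw [show sl β α x.2 = Bki64.chi (x.2 - 0) • η from rfl, By, (hr _).ed, hc _ (hr _), add_zero]
  rfl

variable (h : PR D.F θ ϖ)
include h

/-- flat connections have one level -/
theorem lv_flat (hℓ : Lv D ℓ) (b : Bs D β) (b' : Bs D β') : ∃ n : ℤ, ℓ β' - ℓ β = n := by
  obtain ⟨hol, C⟩ := exists_clr h
  obtain ⟨ξ, p, n, -⟩ := C.ax b
  obtain ⟨s, -, e⟩ := C.fam h b b' p n
  have b1 := bs_tw (psc h) b p s
  obtain ⟨g, k⟩ := (eqv_iff b1 b').1 ((C.eqv b1 b').2 ((C.eqv b' b1).1 e).symm)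
  have cn := b.adm.adm.conn
  obtain ⟨n, e⟩ := hℓ _ _ _ _ _ _ _ (eb_mx (m := (cy β).m) (V := (cy (tv D θ β ξ s)).W) (a := 0)
    (s := 0) b.adm b'.adm (OK.on b.adm.adm.ok _) (IsConn.on cn _) (IsConn.on b1.adm.adm.conn _)
    ⟨_, Iso0.refl (OK.on b.adm.adm.ok _), (IsConn.on cn _).par0_refl⟩ ⟨g, k.iso, k.par⟩ le_rfl) le_rfl
  rw [funext (kd_mx b (Rd78.hc _ _ _ _ D β b _ _ _ (psc h)) fun t => (har_iff (psc h) b).2
    ⟨_, (parS D β).smul_mem t ((parS D β).smul_mem s p), by rw [map_smul, map_smul]⟩),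
    integral_zero] at e
  exact ⟨-n, by push_cast; linarith⟩

variable (hD : D.OK) (hN : Nil N) (py : PY D 1)
include hD hN py

/-- levels of trajectories are integers -/
theorem kap_int {c} (a : N.Crit D β) (a' : N.Crit D β') (t : N.Traj D 0 c β β' ζ ζ') :
    ∃ n : ℤ, c.kap D.B D.G = n := by
  have b := fun β => Wl34.bs (β := β) hD Y.dim hN py
  have k : ∀ {β ζ l}, N.Crit D β → l = atTop ∨ l = atBot → D.nk.Lim c β ζ l →
      ∃ d > 0, D.nk.ELim d c β ζ l := fun {β ζ l} a hl h' =>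
    (elim_psc (b β a) (Wl34.hc py (b β a)) py.ps).imp fun _ k => ⟨k.1, k.2 _ _ _ _ _ D.nk.J
      hl (mem_of_superset univ_mem fun _ _ => by simp [YD.nk, Jv]) (adm_pb _ t.sol.toAdm)
      (eqs_pb _ t.sol Subset.rfl fun z _ => by rw [hN.pt]; exact ⟨rfl, rfl⟩) h'⟩
  obtain ⟨ℓ, hℓ⟩ := exists_lv (ci hD) hD Y.dim
  obtain ⟨n, e⟩ := hℓ.traj hD (b _ a).adm (b _ a').adm t.sol.toAdm (int_elim hD (b _ a).adm
    (b _ a').adm t.sol.toAdm (k a (.inr rfl) t.bot) (k a' (.inl rfl) t.top)) t.bot t.top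
  obtain ⟨n', e'⟩ := lv_flat h hℓ (b _ a) (b _ a')
  exact ⟨n' + n, by push_cast; linarith⟩

/-- chains cost at least one -/
theorem gap {k j} (a : N.Crit D β) (t : N.Brk D 0 β ζ β' ζ' k j) (hj : j ≠ 0) : 1 ≤ k := by
  cases t with
  | nil => exact absurd rfl hj
  | bub t => linarith [(Wl34.brk hD Y.dim hN py t a).1]
  | mov c t m a' r =>
    have := (Wl34.brk hD Y.dim hN py (.mov c t m a' (.nil _ _)) a).2 (by simp)
    obtain ⟨n, e⟩ := kap_int h hD hN py a a' t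
    rw [add_zero, e] at this
    have : (1 : ℝ) ≤ n := by exact_mod_cast this
    linarith [(Wl34.brk hD Y.dim hN py r a').1]

end Y

/-- **RF-RY** -/
theorem ry {κ lam : Type} [Fintype κ] [Fintype lam] [DecidableEq lam] (Lm : G75.LM κ lam) :
    RyStmt Lm := fun S D i Wi r n J R θ ϖ _ hJ hR hN => by
  have e := hJ.iso R hR.np
  have h : PR (J.xs R).D.F _ _ := pr_comp hR.pr e.e
  obtain ⟨p₀, e'⟩ := hR.ln
  have py : PY (J.xs R).D 1 := Clr59.py h fun k y => by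
    change (J.xs R).C.L.A _ _ k y = 0
    rw [← e.L, show ((S.N i).cy R).L = _ from e']
    simp [Line51.Ln.A, Line51.Ln.cm, Line51.Ln.pull]
    exact .inl (by simp [Line51.e1L, Num57.e1_eq])
  obtain ⟨hol, C⟩ := exists_clr h
  exact ⟨⟨py, fun β b => by rw [C.dz h b]; split_ifs <;> simp⟩, fun c => mov hJ c R,
    fun _ _ _ _ _ _ => gap h (hJ.xs R).1.yd hN.1 py⟩

end Crest.Agent.X212.Rr71
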